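import Mathlib
import Vale.Agent.Lib.P248.helper1.ConeAux

/-!
# P248 (helper47, second copy of pool job CQB): the shear scales volumes of preimages by `1 / h`

The shear `y ↦ ecomb (h * y 0 + ⟪v, etail y⟫) (etail y)` of `R^(n+1)`: in the coordinates
`(t, w)` it is `t ↦ h * t + ⟪v, w⟫` on each line `w = const`, so by Fubini the volume of the
preimage of a measurable set `S` is `(1 / h)` times the volume of `S`.
-/

namespace Vale.Agent.Lib.P248.H47S

open MeasureTheory Set
open scoped ENNReal
open Vale.Agent.Lib.P227 Vale.Agent.Lib.P248.H1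

/-- The shear in the coordinates `(t, w)`. -/
theorem shear_ecomb {n : ℕ} (v : EuclideanSpace ℝ (Fin n)) (h t : ℝ)
    (w : EuclideanSpace ℝ (Fin n)) :
    shear v h (ecomb t w) = ecomb (h * t + inner ℝ v w) w := by
  show ecomb (h * (ecomb t w) 0 + inner ℝ v (etail (ecomb t w))) (etail (ecomb t w))
    = ecomb (h * t + inner ℝ v w) w
  rw [ecomb_zero, etail_ecomb]

theorem continuous_shear {n : ℕ} (v : EuclideanSpace ℝ (Fin n)) (h : ℝ) :
    Continuous (shear v h) := by
  have h0 : Continuous (fun y : EuclideanSpace ℝ (Fin (n + 1)) => y 0) :=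
    (continuous_apply 0).comp (PiLp.continuous_ofLp 2 _)
  have h1 : Continuous
      (fun y : EuclideanSpace ℝ (Fin (n + 1)) => h * y 0 + inner ℝ v (etail y)) :=
    (continuous_const.mul h0).add (continuous_const.inner continuous_etail)
  exact continuous_ecomb_prod.comp (h1.prodMk continuous_etail)

theorem shear_preimage {n : ℕ} (v : EuclideanSpace ℝ (Fin n)) (h : ℝ) (hh : 0 < h)
    (S : Set (EuclideanSpace ℝ (Fin (n + 1)))) (hS : MeasurableSet S) :
    volume (shear v h ⁻¹' S) = ENNReal.ofReal (1 / h) * volume S := by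
  have hΦ := measurePreserving_ecomb n
  have hpre : MeasurableSet (shear v h ⁻¹' S) := (continuous_shear v h).measurable hS
  have hA : MeasurableSet ((fun p : ℝ × EuclideanSpace ℝ (Fin n) => ecomb p.1 p.2) ⁻¹'
      (shear v h ⁻¹' S)) := hΦ.measurable hpre
  have hB : MeasurableSet ((fun p : ℝ × EuclideanSpace ℝ (Fin n) => ecomb p.1 p.2) ⁻¹' S) :=
    hΦ.measurable hS
  rw [← hΦ.measure_preimage hpre.nullMeasurableSet, ← hΦ.measure_preimage hS.nullMeasurableSet,
    Measure.prod_apply_symm hA, Measure.prod_apply_symm hB,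
    ← lintegral_const_mul' _ _ ENNReal.ofReal_ne_top]
  refine lintegral_congr (fun w => ?_)
  have hset : (fun t : ℝ => (t, w)) ⁻¹'
        ((fun p : ℝ × EuclideanSpace ℝ (Fin n) => ecomb p.1 p.2) ⁻¹' (shear v h ⁻¹' S))
      = (fun t : ℝ => h * t) ⁻¹' ((fun s : ℝ => s + inner ℝ v w) ⁻¹'
          ((fun t : ℝ => (t, w)) ⁻¹'
            ((fun p : ℝ × EuclideanSpace ℝ (Fin n) => ecomb p.1 p.2) ⁻¹' S))) := by
    ext t
    show shear v h (ecomb t w) ∈ S ↔ ecomb (h * t + inner ℝ v w) w ∈ S
    rw [shear_ecomb]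
  rw [hset, Real.volume_preimage_mul_left hh.ne', measure_preimage_add_right,
    abs_of_pos (inv_pos.mpr hh), one_div]

end Vale.Agent.Lib.P248.H47S
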