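import Mathlib
import Vale.Agent.Lib.P248.helper25.ABDefs

namespace Vale.Agent.Lib.P248.H47

open Vale.Agent.Lib.P248.H25 MeasureTheory
open scoped ENNReal

theorem cone_subset {n : ℕ} {A : Set (Fin (n + 1) → ℝ)} (hc : Convex ℝ A)
    {x : Fin (n + 1) → ℝ} (hx : x ∈ A) (i : Fin (n + 1)) : cone A x i ⊆ A := by
  rintro p ⟨hp0, hpx, -, hb⟩
  have hxi : 0 < x i := lt_trans hp0 hpx
  have hd : 0 < x i - p i := sub_pos.mpr hpx
  have h1 : 0 ≤ 1 - p i / x i := by
    rw [sub_nonneg, div_le_one hxi]; exact hpx.le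
  have h2 : 0 ≤ p i / x i := div_nonneg hp0.le hxi.le
  have hmem := hc hb hx h1 h2 (by ring)
  have heq : (1 - p i / x i) • ((x i - p i)⁻¹ • (x i • p - p i • x)) + (p i / x i) • x = p := by
    funext j
    simp only [Pi.add_apply, Pi.smul_apply, Pi.sub_apply, smul_eq_mul]
    field_simp
    ring
  rw [heq] at hmem
  exact hmem

theorem cone_disjoint {n : ℕ} (A : Set (Fin (n + 1) → ℝ)) (x : Fin (n + 1) → ℝ)
    {i k : Fin (n + 1)} (hik : i ≠ k) : Disjoint (cone A x i) (cone A x k) := by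
  rw [Set.disjoint_left]
  rintro p ⟨-, -, h1, -⟩ ⟨-, -, h2, -⟩
  have a := h1 k (Ne.symm hik)
  have b := h2 i hik
  nlinarith

theorem cone_measurable {n : ℕ} {A : Set (Fin (n + 1) → ℝ)} (hA : IsClosed A)
    (x : Fin (n + 1) → ℝ) (i : Fin (n + 1)) : MeasurableSet (cone A x i) := by
  have hf : Measurable (fun p : Fin (n + 1) → ℝ => (x i - p i)⁻¹ • (x i • p - p i • x)) := by
    apply measurable_pi_lambda
    intro j
    have h1 : Measurable (fun p : Fin (n + 1) → ℝ => p i) := measurable_pi_apply i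
    have h2 : Measurable (fun p : Fin (n + 1) → ℝ => p j) := measurable_pi_apply j
    exact ((measurable_const.sub h1).inv).mul
      ((measurable_const.mul h2).sub (h1.mul measurable_const))
  have h1 : MeasurableSet {p : Fin (n + 1) → ℝ | 0 < p i} :=
    measurableSet_lt measurable_const (measurable_pi_apply i)
  have h2 : MeasurableSet {p : Fin (n + 1) → ℝ | p i < x i} :=
    measurableSet_lt (measurable_pi_apply i) measurable_const
  have h3 : MeasurableSet {p : Fin (n + 1) → ℝ | ∀ j, j ≠ i → 0 < x i * p j - p i * x j} := by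
    have hset : {p : Fin (n + 1) → ℝ | ∀ j, j ≠ i → 0 < x i * p j - p i * x j}
        = ⋂ j, ⋂ (_ : j ≠ i), {p : Fin (n + 1) → ℝ | 0 < x i * p j - p i * x j} := by
      ext p
      constructor
      · intro hp
        exact Set.mem_iInter.mpr fun j => Set.mem_iInter.mpr fun hj => hp j hj
      · intro hp j hj
        exact Set.mem_iInter.mp (Set.mem_iInter.mp hp j) hj
    rw [hset]
    refine MeasurableSet.iInter fun j => MeasurableSet.iInter fun _ => ?_
    exact measurableSet_lt measurable_const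
      ((measurable_const.mul (measurable_pi_apply j)).sub
        ((measurable_pi_apply i).mul measurable_const))
  have h4 : MeasurableSet
      ((fun p : Fin (n + 1) → ℝ => (x i - p i)⁻¹ • (x i • p - p i • x)) ⁻¹' A) :=
    hf hA.measurableSet
  have hcone : cone A x i = {p : Fin (n + 1) → ℝ | 0 < p i} ∩ {p | p i < x i}
      ∩ {p | ∀ j, j ≠ i → 0 < x i * p j - p i * x j}
      ∩ ((fun p : Fin (n + 1) → ℝ => (x i - p i)⁻¹ • (x i • p - p i • x)) ⁻¹' A) := by
    ext p
    constructor
    · rintro ⟨a, b, c, d⟩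
      exact ⟨⟨⟨a, b⟩, c⟩, d⟩
    · rintro ⟨⟨⟨a, b⟩, c⟩, d⟩
      exact ⟨a, b, c, d⟩
  rw [hcone]
  exact ((h1.inter h2).inter h3).inter h4

end Vale.Agent.Lib.P248.H47
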