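import Mathlib

namespace Vale.Agent.Lib.P248.H47

open MeasureTheory
open scoped ENNReal

theorem vol_affine_preimage {n : ℕ} (S : Set (Fin n → ℝ)) {a c : ℝ} (ha : 0 < a)
    (hc : 0 < c) (w : Fin n → ℝ) :
    volume ((fun z : Fin n → ℝ => a⁻¹ • (c • z - w)) ⁻¹' S) =
      ENNReal.ofReal ((a / c) ^ n) * volume S := by
  have hca : c / a ≠ 0 := (div_pos hc ha).ne'
  have hset : (fun z : Fin n → ℝ => a⁻¹ • (c • z - w)) ⁻¹' S
      = (fun z : Fin n → ℝ => (c / a) • z) ⁻¹' ((fun y : Fin n → ℝ => y + (-(a⁻¹ • w))) ⁻¹' S) := by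
    ext z
    simp only [Set.mem_preimage]
    have : a⁻¹ • (c • z - w) = (c / a) • z + -(a⁻¹ • w) := by
      rw [smul_sub, smul_smul, sub_eq_add_neg]
      congr 2
      field_simp
    rw [this]
  rw [hset, Measure.addHaar_preimage_smul volume hca, measure_preimage_add_right]
  congr 2
  rw [Module.finrank_fin_fun, ← inv_pow, inv_div, abs_of_pos (by positivity)]

theorem vol_pos_part {n : ℕ} {S : Set (Fin n → ℝ)} (hS : ∀ b ∈ S, ∀ j, 0 ≤ b j) :
    volume (S ∩ {b | ∀ j, 0 < b j}) = volume S := by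
  apply le_antisymm (measure_mono Set.inter_subset_left)
  have hnull : volume (S \ {b : Fin n → ℝ | ∀ j, 0 < b j}) = 0 := by
    have hsub : S \ {b : Fin n → ℝ | ∀ j, 0 < b j} ⊆ ⋃ j : Fin n, {b : Fin n → ℝ | b j = 0} := by
      intro b hb
      obtain ⟨hbS, hbP⟩ := hb
      simp only [Set.mem_ofPred_eq, not_forall, not_lt] at hbP
      obtain ⟨j, hj⟩ := hbP
      exact Set.mem_iUnion.mpr ⟨j, le_antisymm hj (hS b hbS j)⟩
    apply measure_mono_null hsub
    rw [measure_iUnion_null_iff]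
    intro j
    rw [volume_pi]
    exact Measure.pi_hyperplane (fun _ : Fin n => (volume : Measure ℝ)) j 0
  calc volume S ≤ volume (S ∩ {b | ∀ j, 0 < b j}) + volume (S \ {b | ∀ j, 0 < b j}) :=
        measure_le_inter_add_sdiff volume S _
    _ = volume (S ∩ {b | ∀ j, 0 < b j}) := by rw [hnull, add_zero]

theorem lintegral_pow_cone (n : ℕ) {a : ℝ} (ha : 0 < a) :
    ∫⁻ s in Set.Ioo 0 a, ENNReal.ofReal (((a - s) / a) ^ n) = ENNReal.ofReal (a / (n + 1)) := by
  have hcont : Continuous fun s : ℝ => ((a - s) / a) ^ n := by fun_prop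
  have hint : IntegrableOn (fun s : ℝ => ((a - s) / a) ^ n) (Set.Ioo 0 a) volume :=
    (hcont.integrableOn_Icc (a := 0) (b := a)).mono_set Set.Ioo_subset_Icc_self
  have hnn : 0 ≤ᵐ[volume.restrict (Set.Ioo 0 a)] fun s : ℝ => ((a - s) / a) ^ n := by
    filter_upwards [ae_restrict_mem measurableSet_Ioo] with s hs
    have : 0 ≤ (a - s) / a := div_nonneg (by linarith [hs.2]) ha.le
    exact pow_nonneg this n
  rw [← ofReal_integral_eq_lintegral_ofReal hint hnn]
  congr 1
  rw [← integral_Ioc_eq_integral_Ioo, ← intervalIntegral.integral_of_le ha.le]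
  have hderiv : ∀ s ∈ Set.uIcc 0 a,
      HasDerivAt (fun s : ℝ => -(a / ((n : ℝ) + 1)) * ((a - s) / a) ^ (n + 1))
        (((a - s) / a) ^ n) s := by
    intro s _
    have h1 : HasDerivAt (fun s : ℝ => (a - s) / a) (-1 / a) s :=
      ((hasDerivAt_id s).const_sub a).div_const a
    have h2 : HasDerivAt (fun s : ℝ => -(a / ((n : ℝ) + 1)) * ((a - s) / a) ^ (n + 1))
        (-(a / ((n : ℝ) + 1)) * (((n + 1 : ℕ) : ℝ) * ((a - s) / a) ^ (n + 1 - 1) * (-1 / a))) s :=
      (h1.pow (n + 1)).const_mul (-(a / ((n : ℝ) + 1)))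
    refine h2.congr_deriv ?_
    have hn1 : ((n : ℝ) + 1) ≠ 0 := by positivity
    rw [Nat.add_sub_cancel]
    push_cast
    field_simp
  rw [intervalIntegral.integral_eq_sub_of_hasDerivAt hderiv (hcont.intervalIntegrable 0 a)]
  have hn1 : ((n : ℝ) + 1) ≠ 0 := by positivity
  simp only [sub_self, zero_div, sub_zero, div_self ha.ne', one_pow]
  rw [zero_pow (by omega)]
  ring

end Vale.Agent.Lib.P248.H47
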