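import Mathlib
import Vale.Agent.Lib.P248.helper1.ConeAux
import Vale.Agent.Lib.P248.helper47.ConeVol

/-!
# P248 (helper47, second copy of pool job CQA2): the volume of a cone is at most `(h/(n+1)) |D|`

The section of the cone over `D` with apex `(h, c)` at height `t` is empty for `t` outside
`[0, h]` and lies in `((h - t) / h) • D + (t / h) • c` for `t` in `[0, h]`; slicing gives the
bound.
-/

namespace Vale.Agent.Lib.P248.H47L

open MeasureTheory Set
open scoped ENNReal Pointwise
open Vale.Agent.Lib.P227 Vale.Agent.Lib.P248.H1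

/-- The section of the cone at height `t`: it is empty unless `0 ≤ t ≤ h`, and then it lies in a
translate of a scaled copy of the base. -/
theorem sec_coneE_subset {n : ℕ} (D : Set (EuclideanSpace ℝ (Fin n)))
    (c : EuclideanSpace ℝ (Fin n)) (h : ℝ) (hh : 0 < h) (t : ℝ) :
    sec t (coneE D c h) ⊆ {w | 0 ≤ t ∧ t ≤ h ∧
      w ∈ (fun x : EuclideanSpace ℝ (Fin n) => x + (t / h) • c) '' (((h - t) / h) • D)} := by
  intro w hw
  obtain ⟨d, hd, r, hr0, hr1, hx⟩ : ∃ d ∈ D, ∃ r : ℝ, 0 ≤ r ∧ r ≤ 1 ∧
      ecomb t w = ecomb (r * h) ((1 - r) • d + r • c) := hw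
  have h0 : t = r * h := by
    have h0' : (ecomb t w) 0 = (ecomb (r * h) ((1 - r) • d + r • c)) 0 := by rw [hx]
    rw [ecomb_zero, ecomb_zero] at h0'
    exact h0'
  have h1 : w = (1 - r) • d + r • c := by
    have h1' : etail (ecomb t w) = etail (ecomb (r * h) ((1 - r) • d + r • c)) := by rw [hx]
    rw [etail_ecomb, etail_ecomb] at h1'
    exact h1'
  have hr : r = t / h := by rw [h0, mul_div_assoc, div_self hh.ne', mul_one]
  refine ⟨?_, ?_, ?_⟩
  · rw [h0]
    exact mul_nonneg hr0 hh.le
  · rw [h0]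
    calc r * h ≤ 1 * h := mul_le_mul_of_nonneg_right hr1 hh.le
      _ = h := one_mul h
  · refine ⟨(1 - r) • d, ?_, ?_⟩
    · have e : (h - t) / h = 1 - r := by
        rw [hr, sub_div, div_self hh.ne']
      rw [e]
      exact Set.smul_mem_smul_set hd
    · show (1 - r) • d + (t / h) • c = w
      rw [← hr, h1]

/-- The volume of a translate of a scaled copy of an arbitrary set. -/
theorem vol_image_eq {n : ℕ} (D : Set (EuclideanSpace ℝ (Fin n)))
    (c : EuclideanSpace ℝ (Fin n)) (a b : ℝ) (ha : 0 ≤ a) :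
    volume ((fun x : EuclideanSpace ℝ (Fin n) => x + b • c) '' (a • D))
      = ENNReal.ofReal (a ^ n) * volume D := by
  rw [Set.image_add_right, measure_preimage_add_right, Measure.addHaar_smul,
    finrank_euclideanSpace_fin, abs_of_nonneg (pow_nonneg ha n)]

theorem vol_cone_le {n : ℕ} (D : Set (EuclideanSpace ℝ (Fin n))) (c : EuclideanSpace ℝ (Fin n))
    (h : ℝ) (hh : 0 < h) (hK : MeasurableSet (coneE D c h)) :
    volume (coneE D c h) ≤ ENNReal.ofReal (h / (n + 1)) * volume D := by
  rw [volume_eq_lintegral_sec hK]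
  have hbound : ∀ t : ℝ, volume (sec t (coneE D c h))
      ≤ (Icc (0:ℝ) h).indicator
          (fun s : ℝ => ENNReal.ofReal (((h - s) / h) ^ n) * volume D) t := by
    intro t
    by_cases ht : t ∈ Icc (0:ℝ) h
    · rw [Set.indicator_of_mem ht]
      have hsub : sec t (coneE D c h)
          ⊆ (fun x : EuclideanSpace ℝ (Fin n) => x + (t / h) • c) '' (((h - t) / h) • D) :=
        fun w hw => (sec_coneE_subset D c h hh t hw).2.2
      calc volume (sec t (coneE D c h))
          ≤ volume ((fun x : EuclideanSpace ℝ (Fin n) => x + (t / h) • c) ''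
              (((h - t) / h) • D)) := measure_mono hsub
        _ = ENNReal.ofReal (((h - t) / h) ^ n) * volume D :=
          vol_image_eq D c _ _ (div_nonneg (sub_nonneg.mpr ht.2) hh.le)
    · rw [Set.indicator_of_notMem ht]
      have hempty : sec t (coneE D c h) = ∅ := by
        apply Set.eq_empty_of_forall_notMem
        intro w hw
        have h3 := sec_coneE_subset D c h hh t hw
        exact ht ⟨h3.1, h3.2.1⟩
      rw [hempty, measure_empty]
  have hmeas : Measurable fun t : ℝ => ENNReal.ofReal (((h - t) / h) ^ n) :=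
    ENNReal.measurable_ofReal.comp (Continuous.measurable (by fun_prop))
  calc ∫⁻ t : ℝ, volume (sec t (coneE D c h))
      ≤ ∫⁻ t : ℝ, (Icc (0:ℝ) h).indicator
          (fun s : ℝ => ENNReal.ofReal (((h - s) / h) ^ n) * volume D) t :=
        lintegral_mono hbound
    _ = ∫⁻ t in Icc (0:ℝ) h, ENNReal.ofReal (((h - t) / h) ^ n) * volume D :=
        lintegral_indicator measurableSet_Icc _
    _ = (∫⁻ t in Icc (0:ℝ) h, ENNReal.ofReal (((h - t) / h) ^ n)) * volume D :=
        lintegral_mul_const _ hmeas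
    _ = (∫⁻ t in Ioo (0:ℝ) h, ENNReal.ofReal (((h - t) / h) ^ n)) * volume D := by
        rw [setLIntegral_congr Ioo_ae_eq_Icc]
    _ = ENNReal.ofReal (h / (n + 1)) * volume D := by
        rw [H47.lintegral_pow_cone n hh]

end Vale.Agent.Lib.P248.H47L
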