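import Mathlib
import Vale.Agent.Lib.P248.helper37.Q2Defs

/-!
P248 (helper47, second copy of pool job Q2AB-J5): the polar split by the number of negative
coordinates

`polK A z k` is the part of the polar of `A` about `z` with exactly `k` negative coordinates:
these parts are measurable, the part with `k = 0` is the positive part, counting the negative
coordinates gives `k * |polK k| = ∑ i, |polK k ∩ {y i < 0}|`, and the parts are disjoint subsets
of the polar.
-/

open MeasureTheory Set

namespace Vale.Agent.Lib.P248.H47Q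

open Vale.Agent.Lib.P248.H37 Vale.Agent.Lib.P248.H37Q

theorem isClosed_polZ' {m : ℕ} (A : Set (Fin m → ℝ)) (z : Fin m → ℝ) : IsClosed (polZ A z) := by
  have h : polZ A z = ⋂ x ∈ A, {y : Fin m → ℝ | ∑ i, (x i - z i) * y i ≤ 1} := by
    ext y
    rw [Set.mem_iInter₂]
    exact Iff.rfl
  rw [h]
  refine isClosed_biInter (fun x _ => ?_)
  exact isClosed_le (continuous_finsetSum _ (fun i _ =>
    continuous_const.mul (continuous_apply i))) continuous_const

theorem negCount_eq_sum {m : ℕ} (y : Fin m → ℝ) :
    negCount y = ∑ i : Fin m, if y i < 0 then 1 else 0 :=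
  Finset.card_filter (fun i => y i < 0) Finset.univ

theorem measurable_negCount {m : ℕ} : Measurable (negCount : (Fin m → ℝ) → ℕ) := by
  have h : (negCount : (Fin m → ℝ) → ℕ)
      = fun y => ∑ i : Fin m, if y i < 0 then 1 else 0 := funext negCount_eq_sum
  rw [h]
  refine Finset.measurable_sum _ (fun i _ => ?_)
  exact Measurable.ite (measurableSet_lt (measurable_pi_apply i) measurable_const)
    measurable_const measurable_const

theorem measurableSet_polK {m : ℕ} (A : Set (Fin m → ℝ)) (z : Fin m → ℝ) (k : ℕ) :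
    MeasurableSet (polK A z k) := by
  have h : polK A z k = polZ A z ∩ negCount ⁻¹' {k} := by
    ext y
    exact Iff.rfl
  rw [h]
  exact (isClosed_polZ' A z).measurableSet.inter (measurable_negCount (measurableSet_singleton k))

theorem polK_zero {m : ℕ} (A : Set (Fin m → ℝ)) (z : Fin m → ℝ) : polK A z 0 = posZ A z := by
  ext y
  have hcount : negCount y = 0 ↔ ∀ i, 0 ≤ y i := by
    rw [negCount_eq_sum, Finset.sum_eq_zero_iff]
    constructor
    · intro h i
      by_contra hi
      have h1 := h i (Finset.mem_univ i)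
      rw [if_pos (not_le.mp hi)] at h1
      exact one_ne_zero h1
    · intro h i _
      rw [if_neg (not_lt.mpr (h i))]
  constructor
  · intro hy
    exact ⟨hcount.mp hy.2, hy.1⟩
  · intro hy
    exact ⟨hy.2, hcount.mpr hy.1⟩

theorem polK_count {m : ℕ} (A : Set (Fin m → ℝ)) (z : Fin m → ℝ) (k : ℕ) :
    (k : ENNReal) * volume (polK A z k) = ∑ i, volume (polK A z k ∩ {y | y i < 0}) := by
  have hP := measurableSet_polK A z k
  have hS : ∀ i : Fin m, MeasurableSet {y : Fin m → ℝ | y i < 0} := fun i =>
    measurableSet_lt (measurable_pi_apply i) measurable_const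
  have h1 : ∀ i : Fin m, volume (polK A z k ∩ {y | y i < 0})
      = ∫⁻ y in polK A z k, ({y : Fin m → ℝ | y i < 0}).indicator (1 : (Fin m → ℝ) → ENNReal) y := by
    intro i
    rw [lintegral_indicator_one (hS i), Measure.restrict_apply (hS i), Set.inter_comm]
  have h3 : ∑ i : Fin m, ∫⁻ y in polK A z k,
        ({y : Fin m → ℝ | y i < 0}).indicator (1 : (Fin m → ℝ) → ENNReal) y
      = ∫⁻ y in polK A z k, ∑ i : Fin m,
        ({y : Fin m → ℝ | y i < 0}).indicator (1 : (Fin m → ℝ) → ENNReal) y :=
    (lintegral_finsetSum Finset.univ (fun i _ => measurable_one.indicator (hS i))).symm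
  rw [Finset.sum_congr rfl (fun i _ => h1 i), h3,
    ← setLIntegral_const (polK A z k) (k : ENNReal)]
  refine setLIntegral_congr_fun hP (fun y hy => ?_)
  have hk : negCount y = k := hy.2
  have h2 : ∀ i : Fin m, ({y : Fin m → ℝ | y i < 0}).indicator (1 : (Fin m → ℝ) → ENNReal) y
      = if y i < 0 then (1 : ENNReal) else 0 := by
    intro i
    by_cases hi : y i < 0
    · rw [if_pos hi]
      exact Set.indicator_of_mem (show y ∈ {y : Fin m → ℝ | y i < 0} from hi) _
    · rw [if_neg hi]
      exact Set.indicator_of_notMem (show y ∉ {y : Fin m → ℝ | y i < 0} from hi) _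
  rw [Finset.sum_congr rfl (fun i _ => h2 i), ← hk, negCount_eq_sum, Nat.cast_sum]
  refine Finset.sum_congr rfl (fun i _ => ?_)
  by_cases hi : y i < 0
  · rw [if_pos hi, if_pos hi, Nat.cast_one]
  · rw [if_neg hi, if_neg hi, Nat.cast_zero]

theorem polK_sum_le {m : ℕ} (A : Set (Fin m → ℝ)) (z : Fin m → ℝ) :
    ∑ k ∈ Finset.range (m + 1), volume (polK A z k) ≤ volume (polZ A z) := by
  have hd : Set.PairwiseDisjoint (↑(Finset.range (m + 1))) (fun k => polK A z k) := by
    intro k _ k' _ hkk'
    show Disjoint (polK A z k) (polK A z k')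
    exact Set.disjoint_left.mpr (fun y hy hy' => hkk' (hy.2.symm.trans hy'.2))
  rw [← measure_biUnion_finset hd (fun k _ => measurableSet_polK A z k)]
  refine measure_mono (Set.iUnion₂_subset (fun k _ y hy => ?_))
  exact hy.1

end Vale.Agent.Lib.P248.H47Q
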